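import Vale.Agent.P052.H846.Seven

/-!
P052: every bounded set of positive diameter in `ℝ⁴` is a union of seven sets of smaller diameter,
that is `b(4) ≤ 7`.
-/

namespace Vale.Agent.Results.P052.FourSpaceParts

theorem result : ∀ X : Set (EuclideanSpace ℝ (Fin 4)), Bornology.IsBounded X → 0 < Metric.diam X →
    ∃ P : Fin 7 → Set (EuclideanSpace ℝ (Fin 4)),
      (⋃ i, P i) = X ∧ ∀ i, Metric.diam (P i) < Metric.diam X :=
  fun _ hb hD => Vale.Agent.P052.H846.seven hb hD

end Vale.Agent.Results.P052.FourSpaceParts
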