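import Vale.Agent.P052.H487.Clifford

namespace Vale.Agent.Results.P052.NearlyCentral

open Vale.Agent.P052 Vale.Agent.P052.H487
open scoped RealInnerProductSpace

/-- Borsuk's partition problem for sets which are nearly centrally symmetric. Let `X` be a bounded
subset of `ℝ^d` of positive diameter and `p` a point.
(1) Let `G` be a set of linear isometries such that, for some `c > d / (d + 2)`, every vector `u` is
nearly reversed by some `g` in `G`: `⟪u, g u⟫ ≤ - c ‖u‖ ^ 2`. If `X` is invariant under all maps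
`x ↦ p + g (x - p)`, `g` in `G`, then `X` is a union of `d + 1` sets of smaller diameter. (Central
symmetry is the case `G = {-1}`.)
(2) Let `d ≤ 8` and let `g` be a linear isometry which turns all vectors by the same angle
`θ ∈ (0, π]`, `θ ≠ 2 π / 3`. If `X` is invariant under `x ↦ p + g (x - p)`, then `X` is a union of
`d + 1` sets of smaller diameter.
(3) If `X` lies in the ball of radius `r` about `p` and `4 (d + 1) r ^ 2 < (d + 2) (diam X) ^ 2`,
then `X` is a union of `d + 1` sets of smaller diameter. -/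
theorem result (d : ℕ) (X : Set (E d)) (hX : Bornology.IsBounded X) (hD : 0 < Metric.diam X)
    (p : E d) :
    (∀ G : Set (Iso d), (∃ c : ℝ, (d : ℝ) < c * (d + 2) ∧ ∀ u, ∃ g ∈ G, ⟪u, g u⟫ ≤ -(c * ‖u‖ ^ 2)) →
      GroupInvariant X p G → IsSmallerCover X (d + 1)) ∧
    (∀ (g : Iso d) (θ : ℝ), d ≤ 8 → 0 < θ → θ ≤ Real.pi → θ ≠ 2 * Real.pi / 3 →
      (∀ u, ⟪u, g u⟫ = Real.cos θ * ‖u‖ ^ 2) → (∀ x ∈ X, p + g (x - p) ∈ X) →
      IsSmallerCover X (d + 1)) ∧
    ∀ r : ℝ, (∀ x ∈ X, dist x p ≤ r) → 4 * (d + 1) * r ^ 2 < (d + 2) * Metric.diam X ^ 2 →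
      IsSmallerCover X (d + 1) := by
  refine ⟨?_, ?_, fun r hr h => main_ball hX hD p hr h⟩
  · rintro G ⟨c, hc, hG⟩ hgrp
    exact main_reversed hX hD p G hc hG hgrp
  · intro g θ hd hθ0 hθ h3 hg hgX
    exact main_clifford hd hX hD p g hθ0 hθ h3 hg hgX

end Vale.Agent.Results.P052.NearlyCentral
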