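import Vale.Agent.P052.H487.Grp3
import Vale.Agent.P052.H487.Grp5

namespace Vale.Agent.Results.P052.OrthogonalSymmetries

open Vale.Agent.P052 Vale.Agent.P052.H487
open scoped RealInnerProductSpace

/-- Borsuk's partition problem for sets with several orthogonal symmetries. Let `X` be a bounded
subset of `ℝ^d` of positive diameter and `p` a point. Let the vectors `e (i, 0)`, `e (i, 1)`
(`i < k`) be orthonormal, let the subspaces `W j` (`j < r`) be orthogonal to each other and to all
these vectors, and let `G j` be a set of linear isometries which fix the orthogonal complement of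
`W j` pointwise and whose orbits are dense in the following sense (`DenseOrbits`): for some
`c ≥ 1 / 2` with `m < c (m + 2)`, `m = dim (W j)`, for all `u`, `v` in `W j` some `g` in `G j` has
`⟪u, g v⟫ ≤ - c ‖u‖ ‖v‖`. Let `X` be invariant under the rotations by `θ i ∈ (0, π]` in the planes
spanned by `e (i, 0)`, `e (i, 1)` (about the `(d - 2)`-flats through `p`) and under all maps
`x ↦ p + g (x - p)`, `g` in `G j`.
(1) If `d - 2 k - ∑ j, dim (W j) ≤ 2`, then `X` is a union of `d + 1 + ∑ i, excess (θ i)` sets of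
smaller diameter, where `excess θ` is `2` for `θ = π`, `1` for `θ = 2 π / 3` and `0` for all other
angles.
(2) If `N` sets of diameter less than `diam X` cover the points `x` of `closure X` for which `x - p`
is orthogonal to all `e (i, t)` and all `W j`, then `X` is a union of
`N + 3 k + ∑ j, (dim (W j) + 1) + ∑ i, excess (θ i)` sets of smaller diameter.
(3) A mirror is admissible: for a unit vector `n`, `W = ℝ n` and `G = {1, reflection in n^⊥}` have
dense orbits.
(4) If `d = dim W + 3`, `(W, G)` has dense orbits, every `u` in `W` has a `g` in `G` with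
`⟪u, g u⟫ ≤ - (101 / 125) ‖u‖ ^ 2`, and `X` is invariant under all maps `x ↦ p + g (x - p)`, `g` in
`G`, then `X` is a union of `d + 1` sets of smaller diameter. -/
theorem result (d k r : ℕ) (X : Set (E d)) (hX : Bornology.IsBounded X)
    (hD : 0 < Metric.diam X) (p : E d) (e : Fin k × Fin 2 → E d) (θ : Fin k → ℝ)
    (W : Fin r → Sub d) (G : Fin r → Set (Iso d))
    (hθ : ∀ i, 0 < θ i ∧ θ i ≤ Real.pi) (hS : OrthSystem e W)
    (hG : ∀ j, DenseOrbits (W j) (G j)) (hI : IsInvariant X p e θ G) :
    (d ≤ 2 * k + ∑ j, dim (W j) + 2 → IsSmallerCover X (d + 1 + ∑ i, excess (θ i))) ∧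
    (∀ N : ℕ, CoveredBelow (closure X ∩ commonFlat p e W) (Metric.diam X) N →
      IsSmallerCover X (N + (3 * k + ∑ j, (dim (W j) + 1)) + ∑ i, excess (θ i))) ∧
    (∀ n : E d, ‖n‖ = 1 → DenseOrbits (line n) (mirror n)) ∧
    ∀ (W₁ : Sub d) (G₁ : Set (Iso d)), d = dim W₁ + 3 → DenseOrbits W₁ G₁ →
      NearlyReversed W₁ G₁ → GroupInvariant X p G₁ → IsSmallerCover X (d + 1) := by
  obtain ⟨h1, h2⟩ := main_groups hX hD p e hS.1 θ hθ W G hG hS.2.1 hS.2.2 hI.1 hI.2
  exact ⟨h1, h2, fun n hn => dense_mirror hn,
    fun W₁ G₁ h h' h'' h''' => main_three_grp hX hD p W₁ G₁ h' h'' h''' h⟩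

end Vale.Agent.Results.P052.OrthogonalSymmetries
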