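import Vale.Agent.P052.H487.Fin
import Vale.Agent.P052.H487.Five2
import Vale.Agent.P052.H487.Defs

namespace Vale.Agent.Results.P052.RotationSymmetry

open Vale.Agent.P052 Vale.Agent.P052.H487
open scoped RealInnerProductSpace

/-- Borsuk's partition problem for sets with a rotational symmetry. Let `X` be a bounded subset of
`ℝ^d` of positive diameter.
(1) Let `X` be invariant under the rotation by an angle `θ ∈ (0, π]` about the `(d - 2)`-flat
`F = axis e₁ e₂ c₁ c₂` (`e₁`, `e₂` orthonormal).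
(a) If `d = 4` and `θ ≠ π`, then `X` is a union of `5` sets of smaller diameter.
(b) If `d = 4` and `θ = π`, then `X` is a union of `6` sets of smaller diameter.
(c) If `d = 5` and `θ` is neither `π` nor `2 π / 3` (so that the rotation has order at least
four, or infinite order), then `X` is a union of `6` sets of smaller diameter.
(d) If `d ≥ 4` and `closure X ∩ F` has smaller diameter than `X`, then `X` is a union of `d + 1`
sets of smaller diameter.
(e) If the closure of `X` meets `F` in a set covered by `N` sets of diameter less than `diam X`,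
then `X` is a union of `N + 5` sets of smaller diameter, of `N + 4` such sets if `θ ≠ π` or
`d = 4`, and of `N + 3` such sets if `θ ≠ π` and (`θ ≠ 2 π / 3` or `d = 4`).
(2) If `X` is symmetric in a flat `F` of codimension `k` and `closure X ∩ F` is covered by `N` sets
of diameter less than `diam X`, then `X` is a union of `N + k 2 ^ k` sets of smaller diameter. -/
theorem result (d : ℕ) (X : Set (EuclideanSpace ℝ (Fin d))) (hX : Bornology.IsBounded X)
    (hD : 0 < Metric.diam X) :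
    (∀ (e₁ e₂ : EuclideanSpace ℝ (Fin d)) (c₁ c₂ θ : ℝ), ‖e₁‖ = 1 → ‖e₂‖ = 1 → ⟪e₁, e₂⟫ = 0 →
      0 < θ → θ ≤ Real.pi → (∀ x ∈ X, rotation e₁ e₂ c₁ c₂ θ x ∈ X) →
      (d = 4 → θ ≠ Real.pi → IsSmallerCover X 5) ∧
      (d = 4 → IsSmallerCover X 6) ∧
      (d = 5 → θ ≠ Real.pi → θ ≠ 2 * Real.pi / 3 → IsSmallerCover X 6) ∧
      (4 ≤ d → Metric.diam (closure X ∩ axis e₁ e₂ c₁ c₂) < Metric.diam X →
        IsSmallerCover X (d + 1)) ∧
      (∀ N : ℕ, CoveredBelow (closure X ∩ axis e₁ e₂ c₁ c₂) (Metric.diam X) N →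
        IsSmallerCover X (N + 5) ∧
        ((θ ≠ Real.pi ∨ d = 4) → IsSmallerCover X (N + 4)) ∧
        (θ ≠ Real.pi → (θ ≠ 2 * Real.pi / 3 ∨ d = 4) → IsSmallerCover X (N + 3)))) ∧
    (∀ (F : AffineSubspace ℝ (EuclideanSpace ℝ (Fin d))) [Nonempty F] (k N : ℕ),
      Module.finrank ℝ F.direction + k = d →
      (∀ x ∈ X, EuclideanGeometry.reflection F x ∈ X) →
      CoveredBelow (closure X ∩ F) (Metric.diam X) N → IsSmallerCover X (N + k * 2 ^ k)) := by
  refine ⟨fun e₁ e₂ c₁ c₂ θ h₁ h₂ h₁₂ hθ0 hθ hrot => ?_,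
    fun F _ k N hk hsym ⟨P, hP1, hP2⟩ =>
      main_codim hX hD F hsym P (fun i => (hP1 i).1) (fun i => (hP1 i).2) hP2 hk⟩
  have hK := tr_rot h₁ h₂ h₁₂ hrot
  have hN : ∀ N : ℕ, CoveredBelow (closure X ∩ axis e₁ e₂ c₁ c₂) (Metric.diam X) N →
      IsSmallerCover X (N + 5) ∧ ((θ ≠ Real.pi ∨ d = 4) → IsSmallerCover X (N + 4)) ∧
      (θ ≠ Real.pi → (θ ≠ 2 * Real.pi / 3 ∨ d = 4) → IsSmallerCover X (N + 3)) := by
    rintro N ⟨P, hP1, hP⟩
    have hPb := fun i => (hP1 i).1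
    have hPd := fun i => (hP1 i).2
    refine ⟨rot_five hX hD h₁ h₂ h₁₂ hrot P hPb hPd hP hθ0 hθ, fun h => ?_, fun h h' => ?_⟩
    · rcases h with h | h
      · exact rot_four hX hD h₁ h₂ h₁₂ hrot P hPb hPd hP hθ0 (lt_of_le_of_ne hθ h)
      · exact rot_dim_four hX hD h₁ h₂ h₁₂ hrot P hPb hPd hP h hθ0 hθ
    · by_cases h3 : θ = 2 * Real.pi / 3
      · have hd : d = 4 := h'.resolve_left fun h => h h3
        subst h3
        exact flat_four hX hD h₁ h₂ h₁₂ (sec_order_three hX hD h₁ h₂ h₁₂ hd hK) P hPb hPd hP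
      · exact rot_three hX hD h₁ h₂ h₁₂ hrot P hPb hPd hP hθ0 (lt_of_le_of_ne hθ h) h3
  refine ⟨fun hd h => ?_, fun hd => ?_, fun hd h h' => ?_, fun hd h => ?_, hN⟩
  · exact main_dim_four hX hD h₁ h₂ h₁₂ hd hθ0 (lt_of_le_of_ne hθ h) hK
  · rcases lt_or_eq_of_le hθ with h | h
    · exact cover_mono hD (by norm_num) (main_dim_four hX hD h₁ h₂ h₁₂ hd hθ0 h hK)
    · subst h
      exact main_half_turn hX hD h₁ h₂ h₁₂ hd hK
  · exact main_dim_five' hX hD h₁ h₂ h₁₂ hd hθ0 (lt_of_le_of_ne hθ h) h' hK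
  · obtain ⟨h5, h4, -⟩ := hN 1 ⟨fun _ => closure X ∩ axis e₁ e₂ c₁ c₂,
      fun _ => ⟨hX.closure.subset Set.inter_subset_left, h⟩,
      fun x hx => Set.mem_iUnion.2 ⟨0, hx⟩⟩
    by_cases hd4 : d = 4
    · exact cover_mono hD (by omega) (h4 (Or.inr hd4))
    · exact cover_mono hD (by omega) h5

end Vale.Agent.Results.P052.RotationSymmetry
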